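import Vale.Agent.P153DH.Props

/-!
The proof of `KIT`: the Fourier kernel `ξ ↦ (1 + |ξ|²)^{-s/2} e^{-2πi⟨ξ, x⟩}`.
-/

set_option autoImplicit false

namespace Vale.Agent.P153DH

open MeasureTheory Filter Topology Set Vale.Agent.P153.H212
open scoped FourierTransform SchwartzMap

theorem sch {D : Set ℂ} {φ : ℂ → ℝ} (h : TestOn D φ) :
    ∃ g : 𝓢(ℂ, ℂ), (g : ℂ → ℂ) = fun z => (φ z : ℂ) :=
  ⟨HasCompactSupport.toSchwartzMap (h.2.1.comp_left (g := Complex.ofReal) rfl)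
    (Complex.ofRealCLM.contDiff.comp h.1), rfl⟩

/-- The weight. -/
noncomputable def wt (s : ℝ) (ξ : ℂ) : ℂ := ((1 + ‖ξ‖ ^ 2) ^ (s / 2) : ℝ)

theorem wt_temp (s : ℝ) : (wt s).HasTemperateGrowth := by
  unfold wt
  fun_prop

theorem wt_mul (s : ℝ) (ξ : ℂ) : wt (-s) ξ * wt s ξ = 1 := by
  unfold wt
  rw [← Complex.ofReal_mul, ← Real.rpow_add (by positivity), show -s / 2 + s / 2 = 0 by ring]
  simp

theorem wt_conj (s : ℝ) (ξ : ℂ) : (starRingEnd ℂ) (wt s ξ) = wt s ξ := Complex.conj_ofReal _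

/-- The weighted Fourier transform of a Schwartz function, in `L²`. -/
noncomputable def JS (s : ℝ) : 𝓢(ℂ, ℂ) →L[ℂ] Lp ℂ 2 (volume : Measure ℂ) :=
  (SchwartzMap.toLpCLM ℂ ℂ 2 volume).comp
    ((SchwartzMap.smulLeftCLM ℂ (wt s)).comp (SchwartzMap.fourierTransformCLM ℂ))

theorem JS_ae (s : ℝ) (g : 𝓢(ℂ, ℂ)) :
    JS s g =ᵐ[volume] fun ξ => wt s ξ * 𝓕 (g : ℂ → ℂ) ξ := by
  have := (SchwartzMap.smulLeftCLM ℂ (wt s) (𝓕 g)).coeFn_toLp 2 volume
  rw [SchwartzMap.smulLeftCLM_apply (wt_temp s)] at this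
  exact this

theorem rep_iff {s : ℝ} {φ : ℂ → ℝ} {g : 𝓢(ℂ, ℂ)} (hg : (g : ℂ → ℂ) = fun z => (φ z : ℂ))
    (f : Lp ℂ 2 (volume : Measure ℂ)) : Rep s φ f ↔ f = JS s g := by
  have h := JS_ae s g
  rw [hg] at h
  exact ⟨fun hf => Lp.ext (hf.trans h.symm), fun hf => hf ▸ h⟩

theorem test_lin {D : Set ℂ} {φ ψ : ℂ → ℝ} (h : TestOn D φ) (h' : TestOn D ψ) (c : ℝ) :
    TestOn D fun z => c * φ z + ψ z := by
  have e : tsupport (fun z => c * φ z) ⊆ tsupport φ := tsupport_mul_subset_right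
  refine ⟨(contDiff_const.mul h.1).add h'.1, HasCompactSupport.add h.2.1.mul_left h'.2.1, ?_⟩
  exact (tsupport_add (fun z => c * φ z) ψ).trans (union_subset (e.trans h.2.2) h'.2.2)

theorem test_zero (D : Set ℂ) : TestOn D fun _ => 0 :=
  ⟨contDiff_const, HasCompactSupport.zero, by
    rw [show (fun _ : ℂ => (0 : ℝ)) = 0 from rfl, tsupport_zero]; exact empty_subset _⟩

theorem rep_lin {s : ℝ} {D : Set ℂ} {φ ψ : ℂ → ℝ} (h : TestOn D φ) (h' : TestOn D ψ) (c : ℝ)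
    {f f' : Lp ℂ 2 (volume : Measure ℂ)} (hf : Rep s φ f) (hf' : Rep s ψ f') :
    Rep s (fun z => c * φ z + ψ z) (c • f + f') := by
  obtain ⟨g, hg⟩ := sch h
  obtain ⟨g', hg'⟩ := sch h'
  have e : (((c : ℂ) • g + g' : 𝓢(ℂ, ℂ)) : ℂ → ℂ) = fun z => ((c * φ z + ψ z : ℝ) : ℂ) := by
    funext z
    have h1 := congrFun hg z
    have h2 := congrFun hg' z
    simp [h1, h2]
  rw [rep_iff e, (rep_iff hg f).1 hf, (rep_iff hg' f').1 hf', map_add, map_smul]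
  rfl

theorem rep_zero (s : ℝ) : Rep s (fun _ => 0) 0 := by
  have e : ((0 : 𝓢(ℂ, ℂ)) : ℂ → ℂ) = fun _ => ((0 : ℝ) : ℂ) := by
    funext z
    simp
  rw [rep_iff (φ := fun _ => 0) e, map_zero]

theorem span_sub {s : ℝ} {D : Set ℂ} {f : Lp ℂ 2 (volume : Measure ℂ)}
    (hf : f ∈ Submodule.span ℝ {f | ∃ φ, TestOn D φ ∧ Rep s φ f}) :
    ∃ φ, TestOn D φ ∧ Rep s φ f := by
  induction hf using Submodule.span_induction with
  | mem x hx => exact hx
  | zero => exact ⟨_, test_zero D, rep_zero s⟩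
  | add x y _ _ hx hy =>
    obtain ⟨φ, h1, h2⟩ := hx
    obtain ⟨ψ, h3, h4⟩ := hy
    have := rep_lin h1 h3 1 h2 h4
    rw [one_smul] at this
    exact ⟨_, test_lin h1 h3 1, this⟩
  | smul c x _ hx =>
    obtain ⟨φ, h1, h2⟩ := hx
    have := rep_lin h1 (test_zero D) c h2 (rep_zero s)
    rw [add_zero] at this
    exact ⟨_, test_lin h1 (test_zero D) c, this⟩

/-- The kernel. -/
noncomputable def kf (s : ℝ) (x ξ : ℂ) : ℂ := wt (-s) ξ * (𝐞 (-inner ℝ ξ x) : Circle)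

theorem kf_cont (s : ℝ) : Continuous fun q : ℂ × ℂ => kf s q.1 q.2 := by
  have h1 : Continuous (wt (-s)) := (wt_temp _).1.continuous
  have h2 : Continuous fun q : ℂ × ℂ => (𝐞 (-inner ℝ q.2 q.1) : Circle) :=
    Real.continuous_fourierChar.comp (continuous_snd.inner continuous_fst).neg
  exact (h1.comp continuous_snd).mul (continuous_subtype_val.comp h2)

theorem kf_c1 (s : ℝ) (ξ : ℂ) : Continuous fun x => kf s x ξ :=
  Continuous.comp (g := fun q : ℂ × ℂ => kf s q.1 q.2) (f := fun x => (x, ξ)) (kf_cont s)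
    (by fun_prop)

theorem kf_c2 (s : ℝ) (x : ℂ) : Continuous fun ξ => kf s x ξ :=
  Continuous.comp (g := fun q : ℂ × ℂ => kf s q.1 q.2) (f := fun ξ => (x, ξ)) (kf_cont s)
    (by fun_prop)

theorem kf_norm (s : ℝ) (x ξ : ℂ) : ‖kf s x ξ‖ ^ 2 = (1 + ‖ξ‖ ^ 2) ^ (-(2 * s) / 2) := by
  unfold kf wt
  rw [norm_mul, Circle.norm_coe, mul_one, Complex.norm_real, Real.norm_eq_abs, sq_abs,
    ← Real.rpow_natCast, ← Real.rpow_mul (by positivity)]
  congr 1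
  push_cast
  ring

theorem wt_int {s : ℝ} (hs : 1 < s) :
    Integrable (fun ξ : ℂ => (1 + ‖ξ‖ ^ 2) ^ (-(2 * s) / 2)) volume :=
  integrable_rpow_neg_one_add_norm_sq (by rw [Complex.finrank_real_complex]; push_cast; linarith)

theorem kf_mem {s : ℝ} (hs : 1 < s) (x : ℂ) : MemLp (kf s x) 2 volume := by
  have hc := kf_c2 s x
  rw [memLp_two_iff_integrable_sq_norm hc.aestronglyMeasurable]
  simpa only [kf_norm] using wt_int hs

/-- The kernel in `L²`. -/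
noncomputable def a0 {s : ℝ} (hs : 1 < s) (x : ℂ) : Lp ℂ 2 (volume : Measure ℂ) :=
  (kf_mem hs x).toLp

theorem a0_ae {s : ℝ} (hs : 1 < s) (x : ℂ) : a0 hs x =ᵐ[volume] kf s x := (kf_mem hs x).coeFn_toLp

theorem a0_norm {s : ℝ} (hs : 1 < s) (x : ℂ) : ‖a0 hs x‖ ≤ ‖a0 hs 0‖ := by
  refine Lp.norm_le_norm_of_ae_le ?_
  filter_upwards [a0_ae hs x, a0_ae hs 0] with ξ h1 h2
  rw [h1, h2]
  refine le_of_eq ((pow_left_inj₀ (norm_nonneg _) (norm_nonneg _) two_ne_zero).1 ?_)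
  rw [kf_norm, kf_norm]

theorem a0_cont {s : ℝ} (hs : 1 < s) : Continuous (a0 hs) := by
  refine continuous_iff_continuousAt.2 fun x => ?_
  have e : ∀ y, ‖a0 hs y - a0 hs x‖ = √(∫ ξ, ‖kf s y ξ - kf s x ξ‖ ^ 2) := by
    intro y
    rw [← Real.sqrt_sq (norm_nonneg (a0 hs y - a0 hs x)), ← real_inner_self_eq_norm_sq,
      L2.inner_def]
    congr 1
    refine integral_congr_ae ?_
    filter_upwards [Lp.coeFn_sub (a0 hs y) (a0 hs x), a0_ae hs x, a0_ae hs y] with ξ h1 h2 h3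
    rw [real_inner_self_eq_norm_sq, h1, Pi.sub_apply, h2, h3]
  have hc : Continuous fun y => ∫ ξ, ‖kf s y ξ - kf s x ξ‖ ^ 2 := by
    refine continuous_of_dominated (bound := fun ξ => 4 * (1 + ‖ξ‖ ^ 2) ^ (-(2 * s) / 2))
      (fun y => ?_) (fun y => ae_of_all _ fun ξ => ?_) ((wt_int hs).const_mul 4)
      (ae_of_all _ fun ξ => ?_)
    · exact (((kf_c2 s y).sub (kf_c2 s x)).norm.pow 2).aestronglyMeasurable
    · have h1 := kf_norm s y ξ
      have h2 := kf_norm s x ξ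
      have h3 := pow_le_pow_left₀ (norm_nonneg _) (norm_sub_le (kf s y ξ) (kf s x ξ)) 2
      rw [Real.norm_eq_abs, abs_of_nonneg (sq_nonneg _)]
      nlinarith [sq_nonneg (‖kf s y ξ‖ - ‖kf s x ξ‖)]
    · exact ((kf_c1 s ξ).sub continuous_const).norm.pow 2
  rw [ContinuousAt, tendsto_iff_norm_sub_tendsto_zero]
  simp only [e]
  have := (Real.continuous_sqrt.comp hc).tendsto x
  simpa [Function.comp_def] using this

theorem a0_JS {s : ℝ} (hs : 1 < s) (x : ℂ) (g : 𝓢(ℂ, ℂ)) :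
    inner ℝ (a0 hs x) (JS s g) = (g x).re := by
  have hi : Integrable (fun ξ : ℂ => (𝐞 (inner ℝ ξ x) : Circle) • 𝓕 (g : ℂ → ℂ) ξ) volume := by
    have hc : Continuous fun ξ : ℂ => (𝐞 (inner ℝ ξ x) : Circle) • 𝓕 (g : ℂ → ℂ) ξ :=
      (Real.continuous_fourierChar.comp (continuous_id.inner continuous_const)).smul
        (𝓕 g).continuous
    refine (𝓕 g).integrable.norm.mono' hc.aestronglyMeasurable (ae_of_all _ fun ξ => ?_)
    rw [Circle.norm_smul]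
    exact le_rfl
  have e : g x = ∫ ξ : ℂ, (𝐞 (inner ℝ ξ x) : Circle) • 𝓕 (g : ℂ → ℂ) ξ := by
    rw [← Real.fourierInv_eq, g.continuous.fourierInv_fourier_eq g.integrable (𝓕 g).integrable]
  rw [e, L2.inner_def]
  refine Eq.trans ?_ (integral_re hi)
  refine integral_congr_ae ?_
  filter_upwards [a0_ae hs x, JS_ae s g] with ξ h1 h2
  rw [h1, h2, Complex.inner, kf, map_mul, wt_conj, ← Circle.coe_inv_eq_conj, ← AddChar.map_neg_eq_inv,
    neg_neg, Circle.smul_def, smul_eq_mul, RCLike.re_to_complex]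
  congr 1
  linear_combination (𝓕 (g : ℂ → ℂ) ξ * (𝐞 (inner ℝ ξ x) : Circle)) * wt_mul s ξ

theorem kit_thm : KIT := by
  intro s D hs
  have hU : ∀ f, (∃ φ, TestOn D φ ∧ Rep s φ f) → f ∈ H0 s D := fun f hf =>
    Submodule.le_topologicalClosure _ (Submodule.subset_span hf)
  have : CompleteSpace (H0 s D) := (Submodule.isClosed_topologicalClosure _).completeSpace_coe
  refine ⟨fun φ hφ => ?_, fun w => ?_, fun x => (H0 s D).orthogonalProjectionOnto (a0 hs x),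
    ‖a0 hs 0‖, (H0 s D).orthogonalProjectionOnto.continuous.comp (a0_cont hs), fun x => ?_,
    fun x φ f hφ hf => ?_⟩
  · obtain ⟨g, hg⟩ := sch hφ
    have h := (rep_iff (s := s) hg _).2 rfl
    exact ⟨⟨_, hU _ ⟨φ, hφ, h⟩⟩, h⟩
  · have hw : (w : Lp ℂ 2 (volume : Measure ℂ)) ∈ closure
        (Submodule.span ℝ {f | ∃ φ, TestOn D φ ∧ Rep s φ f} : Set _) := w.2
    rw [closure_subtype]
    refine closure_mono (fun f hf => ?_) hw
    exact ⟨⟨f, hU f (span_sub hf)⟩, span_sub hf, rfl⟩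
  · exact ((H0 s D).norm_orthogonalProjectionOnto_apply_le _).trans (a0_norm hs x)
  · obtain ⟨g, hg⟩ := sch hφ
    rw [Submodule.inner_orthogonalProjectionOnto_eq_of_mem_right, (rep_iff hg _).1 hf, a0_JS, hg]
    rfl

end Vale.Agent.P153DH
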