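import Vale.Agent.P153DH.Defs

/-!
The two inputs of the proof of `SobolevTheorem`.
-/

set_option autoImplicit false

namespace Vale.Agent.P153DH

open MeasureTheory Filter Topology Set Vale.Agent.P153.H212

/-- The test functions are dense in `H0 s D`, and the Dirac masses are represented by a continuous
kernel. -/
def KIT : Prop :=
  ∀ (s : ℝ) (D : Set ℂ), 1 < s → (∀ φ, TestOn D φ → ∃ f : H0 s D, Rep s φ f) ∧
    Dense {f : H0 s D | ∃ φ, TestOn D φ ∧ Rep s φ f} ∧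
    ∃ (a : ℂ → H0 s D) (M : ℝ), Continuous a ∧ (∀ x, ‖a x‖ ≤ M) ∧
      ∀ (x : ℂ) (φ : ℂ → ℝ) (f : H0 s D), TestOn D φ → Rep s φ f → inner ℝ (a x) f = φ x

/-- The second moments of the field tested against bounded Hilbert space valued functions. -/
def MOMH : Prop :=
  ∀ (Φ : ℂ ≃ₜ ℂ) (δ : ℕ → ℝ) (N k : ℕ → ℕ) (p : ∀ n, ZMod (N n) → ℤ × ℤ)
    (S : ℕ → Finset (Finset (ℤ × ℤ))), Approx Φ δ N k p S →
    (∃ R : ℝ, ∀ n, region (δ n) (S n) ⊆ Metric.closedBall 0 R) ∧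
    ∃ C : ℝ, 0 ≤ C ∧ ∀ (n : ℕ) (B : ZMod (N n) → Set ℤ), (B = arcs (k n) ∨ B = free) →
      ∀ (E : Type) [NormedAddCommGroup E] [InnerProductSpace ℝ E] [CompleteSpace E] (b : ℂ → E)
        (M : ℝ), Continuous b → (∀ z ∈ region (δ n) (S n), ‖b z‖ ≤ M) →
        ∫ h, ‖∫ z in region (δ n) (S n), ext h (z / δ n) • b z‖ ^ 2 ∂law (p n) (S n) B ≤ C * M ^ 2

end Vale.Agent.P153DH
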