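import Vale.Agent.P153.H212.Def

/-!
Convergence in law of the height field in the Sobolev space `H^{-s}(D)`: the definitions.
-/

set_option autoImplicit false

namespace Vale.Agent.P153DH

open MeasureTheory ProbabilityTheory Filter Topology Set Vale.Agent.P153.H212
open scoped FourierTransform

/-- `f` is the function `ξ ↦ (1 + |ξ|²)^{s/2} φ̂(ξ)`, so that `‖f‖ = ‖φ‖_{H^s(ℝ²)}`. -/
def Rep (s : ℝ) (φ : ℂ → ℝ) (f : Lp ℂ 2 (volume : Measure ℂ)) : Prop :=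
  f =ᵐ[volume] fun ξ => ((1 + ‖ξ‖ ^ 2) ^ (s / 2) : ℝ) * 𝓕 (fun z => (φ z : ℂ)) ξ

/-- The closure of the test functions on `D` in `H^s(ℝ²)`, written on the Fourier side as a closed
real subspace of `L²`. -/
noncomputable def H0 (s : ℝ) (D : Set ℂ) : Submodule ℝ (Lp ℂ 2 (volume : Measure ℂ)) :=
  (Submodule.span ℝ {f | ∃ φ, TestOn D φ ∧ Rep s φ f}).topologicalClosure

/-- The Sobolev space `H^{-s}(D)`: the dual of `H0 s D`, with the dual norm (and the Borel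
`σ`-algebra). -/
abbrev Hm (s : ℝ) (D : Set ℂ) : Type := StrongDual ℝ (H0 s D)

/-- The element `T` of `H^{-s}(D)` is the distribution `φ ↦ L φ`. -/
def Acts {s : ℝ} {D : Set ℂ} (T : Hm s D) (L : (ℂ → ℝ) → ℝ) : Prop :=
  ∀ (φ : ℂ → ℝ) (f : H0 s D), TestOn D φ → Rep s φ f → T f = L φ

/-- `ν` is the law of the Dirichlet Gaussian free field of `D` on `H^{-s}(D)`: the value on every
test function `φ` is centred Gaussian with variance `⟨φ, (-Δ_D)⁻¹ φ⟩`. -/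
def IsGFF {s : ℝ} {D : Set ℂ} (ν : Measure (Hm s D)) : Prop :=
  IsProbabilityMeasure ν ∧ ∀ (φ : ℂ → ℝ) (f : H0 s D), TestOn D φ → Rep s φ f →
    ν.map (fun T => T f) = gaussianReal 0 (V D φ).toNNReal

/-- Convergence in law in `H^{-s}(D)` of `X n` (under `μ n`) to `Y` (under `ν`). -/
def ToLaw {s : ℝ} {D : Set ℂ} (μ : ℕ → Measure (ℤ × ℤ → ℤ)) (X : ℕ → (ℤ × ℤ → ℤ) → Hm s D)
    (ν : Measure (Hm s D)) (Y : Hm s D → Hm s D) : Prop :=
  (∀ n, IsProbabilityMeasure (μ n) ∧ AEMeasurable (X n) (μ n)) ∧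
  ∀ F : Hm s D → ℝ, Continuous F → (∃ M, ∀ T, |F T| ≤ M) →
    Tendsto (fun n => ∫ h, F (X n h) ∂μ n) atTop (𝓝 (∫ T, F (Y T) ∂ν))

/-- For every marked Jordan domain and every `s > 1`: the test functions belong to `H0 s D`; the
Gaussian free field has a unique law `ν` on `H^{-s}(D)`; the harmonic function `u` and the fields
`h_δ` are elements `U`, `X n h` of `H^{-s}(D)`; in law in `H^{-s}(D)`,
`h_δ - E h_δ → √(8/π) Φ_D` and `h_δ → u + √(8/π) Φ_D` for the boundary values `±1` on the two arcs,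
and `h_δ → √(8/π) Φ_D` for the free boundary values `±1`. -/
def SobolevTheorem : Prop :=
  ∀ (Φ : ℂ ≃ₜ ℂ) (s : ℝ), 1 < s →
    (∀ φ, TestOn (dom Φ) φ → ∃ f : H0 s (dom Φ), Rep s φ f) ∧
    ∃ ν : Measure (Hm s (dom Φ)), IsGFF ν ∧ (∀ ν', IsGFF ν' → ν' = ν) ∧
    ∃ (u : ℂ → ℝ) (U : Hm s (dom Φ)), IsHarm Φ u ∧ Acts U (fun φ => ∫ z, u z * φ z) ∧
    ∀ (δ : ℕ → ℝ) (N k : ℕ → ℕ) (p : ∀ n, ZMod (N n) → ℤ × ℤ)
      (S : ℕ → Finset (Finset (ℤ × ℤ))), Approx Φ δ N k p S →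
      ∃ X : ℕ → (ℤ × ℤ → ℤ) → Hm s (dom Φ),
        (∀ n h, Acts (X n h) fun φ => fld (S n) (δ n) φ h) ∧
        ToLaw (fun n => law (p n) (S n) (arcs (k n)))
          (fun n h => X n h - ∫ g, X n g ∂law (p n) (S n) (arcs (k n))) ν
          (fun T => √(8 / Real.pi) • T) ∧
        ToLaw (fun n => law (p n) (S n) (arcs (k n))) X ν (fun T => U + √(8 / Real.pi) • T) ∧
        ToLaw (fun n => law (p n) (S n) free) X ν (fun T => √(8 / Real.pi) • T)

end Vale.Agent.P153DH
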