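import Mathlib

/-!
A Hilbert space `H`, a continuous linear map `J : 𝓓(Ω) → H` with dense range and a continuous
kernel `a : ℂ → H` with relatively compact range such that `⟪a x, J φ⟫ = φ x`, for a bounded open
set `Ω` of the plane. `J φ = ∂₁ ∂₂ φ` in `L²` of a square, `a x` the indicator of a quadrant.
-/

set_option autoImplicit false

namespace Vale.Agent.P153DH

open MeasureTheory Filter Topology Set TopologicalSpace
open scoped Distributions RealInnerProductSpace symmDiff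

/-- The Lebesgue measure on the square `[-R, R]²`. -/
noncomputable abbrev bx (R : ℝ) : Measure (ℝ × ℝ) :=
  (volume.restrict (Icc (-R) R)).prod (volume.restrict (Icc (-R) R))

/-- Real coordinates of the plane. -/
noncomputable def cx : C(ℝ × ℝ, ℂ) := ⟨fun y => y.1 + y.2 * Complex.I, by fun_prop⟩

/-- The mixed second derivative. -/
noncomputable def dd (Ω : Opens ℂ) : 𝓓(Ω, ℝ) →L[ℝ] 𝓓(Ω, ℝ) :=
  (TestFunction.lineDerivCLM ℝ Complex.I : 𝓓(Ω, ℝ) →L[ℝ] 𝓓(Ω, ℝ)).comp
    (TestFunction.lineDerivCLM ℝ (1 : ℂ) : 𝓓(Ω, ℝ) →L[ℝ] 𝓓(Ω, ℝ))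

/-- The mixed second derivative, in `L²` of the square. -/
noncomputable def J0 (Ω : Opens ℂ) (R : ℝ) : 𝓓(Ω, ℝ) →L[ℝ] Lp ℝ 2 (bx R) :=
  (BoundedContinuousFunction.toLp 2 (bx R) ℝ).comp
    ((BoundedContinuousFunction.compContinuousCLM ℝ ℝ cx).comp
      ((TestFunction.toBoundedContinuousFunctionCLM ℝ).comp (dd Ω)))

/-- The quadrant below the point `x`. -/
def qd (x : ℝ × ℝ) : Set (ℝ × ℝ) := Iic x.1 ×ˢ Iic x.2

theorem qd_ms (x : ℝ × ℝ) : MeasurableSet (qd x) := measurableSet_Iic.prod measurableSet_Iic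

/-- The indicator of the quadrant. -/
noncomputable def k0 (R : ℝ) (x : ℝ × ℝ) : Lp ℝ 2 (bx R) :=
  indicatorConstLp 2 (qd_ms x) (measure_ne_top _ _) (1 : ℝ)

theorem k0_cont (R : ℝ) : Continuous (k0 R) := by
  refine continuous_indicatorConstLp_set (by simp) fun x => ?_
  have h0 : bx R ∅ = 0 := measure_empty
  rw [← h0]
  refine tendsto_measure_of_ae_tendsto_indicator_of_isFiniteMeasure _ MeasurableSet.empty
    (fun y => (qd_ms y).symmDiff (qd_ms x)) ?_
  have h1 : ∀ᵐ z ∂bx R, z.1 ≠ x.1 := by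
    have : bx R ({x.1} ×ˢ univ) = 0 := by rw [Measure.prod_prod]; simp
    refine measure_mono_null (fun z hz => ?_) this
    simpa using hz
  have h2 : ∀ᵐ z ∂bx R, z.2 ≠ x.2 := by
    have : bx R (univ ×ˢ {x.2}) = 0 := by rw [Measure.prod_prod]; simp
    refine measure_mono_null (fun z hz => ?_) this
    simpa using hz
  filter_upwards [h1, h2] with z hz1 hz2
  have e : ∀ s t : ℝ, s ≠ t → ∀ᶠ r in 𝓝 t, (s ≤ r ↔ s ≤ t) := by
    intro s t hst
    rcases lt_or_gt_of_ne hst with h | h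
    · filter_upwards [lt_mem_nhds h] with r hr
      exact ⟨fun _ => h.le, fun _ => hr.le⟩
    · filter_upwards [gt_mem_nhds h] with r hr
      exact ⟨fun h' => absurd h' (not_le.2 hr), fun h' => absurd h' (not_le.2 h)⟩
  filter_upwards [continuous_fst.continuousAt.eventually (e _ _ hz1),
    continuous_snd.continuousAt.eventually (e _ _ hz2)] with y hy1 hy2
  simp only [mem_symmDiff, qd, mem_prod, mem_Iic, hy1, hy2, mem_empty_iff_false]
  tauto

theorem ftc {Ω : Opens ℂ} (ψ : 𝓓(Ω, ℝ)) (c v : ℂ) (hv : v ≠ 0) (b : ℝ) :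
    ∫ t in Iic b, (TestFunction.lineDerivCLM ℝ v ψ : 𝓓(Ω, ℝ)) (c + t * v) = ψ (c + b * v) := by
  have hl : ContDiff ℝ 1 fun t : ℝ => c + t * v := by
    refine contDiff_const.add (ContDiff.mul ?_ contDiff_const)
    exact Complex.ofRealCLM.contDiff
  have hd : ContDiff ℝ 1 (ψ : ℂ → ℝ) := ψ.contDiff.of_le (by simp)
  have hc : HasCompactSupport fun t : ℝ => ψ (c + t * v) := by
    refine ψ.hasCompactSupport.comp_isClosedEmbedding (g := fun t : ℝ => c + t * v) ?_
    have e : (fun t : ℝ => c + t * v) = (fun z => c + z) ∘ (fun z => z * v) ∘ Complex.ofReal := rfl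
    rw [e]
    exact (Homeomorph.addLeft c).isClosedEmbedding.comp
      ((Homeomorph.mulRight₀ v hv).isClosedEmbedding.comp Complex.isometry_ofReal.isClosedEmbedding)
  refine Eq.trans ?_ (HasCompactSupport.integral_Iic_deriv_eq (hd.comp hl) hc b)
  refine integral_congr_ae (ae_of_all _ fun t => ?_)
  have h1 : HasDerivAt (fun t : ℝ => c + t * v) v t := by
    simpa using ((Complex.ofRealCLM.hasDerivAt (x := t)).mul_const v).const_add c
  have h2 := ((hd.differentiable one_ne_zero) (c + t * v)).hasFDerivAt.comp_hasDerivAt t h1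
  have h3 := h2.deriv
  simp only [TestFunction.lineDerivCLM_eq_fderivCLM]
  rw [TestFunction.fderivCLM_apply_of_le _ (by simp)]
  exact h3.symm

theorem k0_J0 {Ω : Opens ℂ} {R : ℝ} (hR : (Ω : Set ℂ) ⊆ Metric.ball 0 R) (x : ℝ × ℝ)
    (φ : 𝓓(Ω, ℝ)) : ⟪k0 R x, J0 Ω R φ⟫ = φ (cx x) := by
  have hg : Continuous fun y : ℝ × ℝ => dd Ω φ (cx y) := (dd Ω φ).continuous.comp cx.continuous
  have hz : ∀ y : ℝ × ℝ, y ∉ Icc (-R) R ×ˢ Icc (-R) R → dd Ω φ (cx y) = 0 := by
    intro y hy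
    refine image_eq_zero_of_notMem_tsupport fun h => hy ?_
    have h1 := hR ((dd Ω φ).tsupport_subset h)
    rw [mem_ball_zero_iff] at h1
    have h2 := (Complex.abs_re_le_norm (cx y)).trans h1.le
    have h3 := (Complex.abs_im_le_norm (cx y)).trans h1.le
    simp only [cx, ContinuousMap.coe_mk, Complex.add_re, Complex.ofReal_re, Complex.mul_re,
      Complex.I_re, mul_zero, Complex.ofReal_im, Complex.I_im, mul_one, sub_self, add_zero,
      Complex.add_im, Complex.mul_im, zero_add] at h2 h3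
    exact ⟨abs_le.1 h2, abs_le.1 h3⟩
  have hK : IsCompact (Icc (-R) R ×ˢ Icc (-R) R) := isCompact_Icc.prod isCompact_Icc
  have hi : Integrable (fun y : ℝ × ℝ => dd Ω φ (cx y)) (volume.prod volume) :=
    hg.integrable_of_hasCompactSupport (HasCompactSupport.intro hK hz)
  rw [k0, L2.inner_indicatorConstLp_one]
  have e1 : ∫ y in qd x, J0 Ω R φ y ∂bx R = ∫ y in qd x, dd Ω φ (cx y) ∂bx R := by
    refine integral_congr_ae (ae_restrict_of_ae ?_)
    exact BoundedContinuousFunction.coeFn_toLp 2 (bx R) ℝ _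
  rw [e1, bx, Measure.prod_restrict, Measure.restrict_restrict (qd_ms x), inter_comm,
    ← Measure.restrict_restrict hK.measurableSet,
    setIntegral_eq_integral_of_forall_compl_eq_zero hz, qd, setIntegral_prod _ hi.integrableOn]
  have e2 : ∀ s : ℝ, ∫ t in Iic x.2, dd Ω φ (cx (s, t)) =
      (TestFunction.lineDerivCLM ℝ (1 : ℂ) φ : 𝓓(Ω, ℝ)) (x.2 * Complex.I + s * 1) := by
    intro s
    have := ftc (TestFunction.lineDerivCLM ℝ (1 : ℂ) φ : 𝓓(Ω, ℝ)) s Complex.I Complex.I_ne_zero x.2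
    rw [mul_one, add_comm _ (s : ℂ), ← this]
    rfl
  simp only [e2]
  rw [ftc φ _ 1 one_ne_zero, mul_one, add_comm]
  rfl

/-- The retraction of the line onto `[-R, R]`. -/
def cl (R t : ℝ) : ℝ := max (-R) (min t R)

theorem cl_mem {R : ℝ} (hR : 0 ≤ R) (t : ℝ) : cl R t ∈ Icc (-R) R :=
  ⟨le_max_left _ _, max_le (by linarith) (min_le_right _ _)⟩

theorem cl_eq {R t : ℝ} (h : |cl R t| < R) : cl R t = t := by
  rw [abs_lt] at h
  unfold cl at *
  rcases le_total t R with h1 | h1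
  · rw [min_eq_left h1] at h ⊢
    rcases le_total (-R) t with h2 | h2
    · exact max_eq_right h2
    · rw [max_eq_left h2] at h; exact absurd h.1 (lt_irrefl _)
  · rw [min_eq_right h1] at h
    exact absurd h.2 (not_lt.2 (le_max_right _ _))

theorem cl_of {R t : ℝ} (h : |t| < R) : cl R t = t := by
  rw [abs_lt] at h
  unfold cl
  rw [min_eq_left h.2.le, max_eq_right h.1.le]

theorem app_cl {Ω : Opens ℂ} {R : ℝ} (hR : (Ω : Set ℂ) ⊆ Metric.ball 0 R) (x : ℂ)
    (φ : 𝓓(Ω, ℝ)) : φ (cx (cl R x.re, cl R x.im)) = φ x := by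
  have key : ∀ z : ℂ, φ z ≠ 0 → |z.re| < R ∧ |z.im| < R := by
    intro z hz
    have h1 := hR (φ.tsupport_subset (subset_tsupport _ hz))
    rw [mem_ball_zero_iff] at h1
    exact ⟨(Complex.abs_re_le_norm z).trans_lt h1, (Complex.abs_im_le_norm z).trans_lt h1⟩
  have hx : cx (x.re, x.im) = x := Complex.re_add_im x
  by_cases h : φ x = 0
  · rw [h]
    by_contra h'
    obtain ⟨h1, h2⟩ := key _ h'
    have e1 : (cx (cl R x.re, cl R x.im)).re = cl R x.re := by simp [cx]
    have e2 : (cx (cl R x.re, cl R x.im)).im = cl R x.im := by simp [cx]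
    rw [e1] at h1
    rw [e2] at h2
    rw [cl_eq h1, cl_eq h2, hx] at h'
    exact h' h
  · obtain ⟨h1, h2⟩ := key _ h
    rw [cl_of h1, cl_of h2, hx]

/-- The Hilbert space, the map `J` and the kernel `a`. -/
theorem kit (Ω : Opens ℂ) (hΩ : Bornology.IsBounded (Ω : Set ℂ)) :
    ∃ (H : Type) (_ : NormedAddCommGroup H) (_ : InnerProductSpace ℝ H) (_ : CompleteSpace H)
      (_ : SecondCountableTopology H) (J : 𝓓(Ω, ℝ) →L[ℝ] H) (a : ℂ → H),
      DenseRange J ∧ Continuous a ∧ (∃ K, IsCompact K ∧ ∀ x, a x ∈ K) ∧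
        ∀ x φ, ⟪a x, J φ⟫ = φ x := by
  obtain ⟨R, hR0, hR⟩ := hΩ.subset_ball_lt 0 0
  let U : Submodule ℝ (Lp ℝ 2 (bx R)) := (J0 Ω R).range.topologicalClosure
  have hU : ∀ φ, J0 Ω R φ ∈ U := fun φ => Submodule.le_topologicalClosure _ ⟨φ, rfl⟩
  have : CompleteSpace U := (Submodule.isClosed_topologicalClosure _).completeSpace_coe
  have : Fact ((2 : ENNReal) ≠ ⊤) := ⟨by simp⟩
  have hc : Continuous fun x : ℂ => (cl R x.re, cl R x.im) := by unfold cl; fun_prop
  refine ⟨U, inferInstance, inferInstance, inferInstance, inferInstance,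
    (J0 Ω R).codRestrict U hU, fun x => U.orthogonalProjectionOnto (k0 R (cl R x.re, cl R x.im)),
    ?_, U.orthogonalProjectionOnto.continuous.comp ((k0_cont R).comp hc), ?_, fun x φ => ?_⟩
  · intro w
    have hw : (w : Lp ℝ 2 (bx R)) ∈ closure (range (J0 Ω R)) := w.2
    rw [closure_subtype]
    refine closure_mono ?_ hw
    rintro _ ⟨φ, rfl⟩
    exact ⟨_, ⟨φ, rfl⟩, rfl⟩
  · refine ⟨_, (isCompact_Icc.prod isCompact_Icc :
      IsCompact (Icc (-R) R ×ˢ Icc (-R) R)).image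
        (U.orthogonalProjectionOnto.continuous.comp (k0_cont R)), fun x => ?_⟩
    exact ⟨_, ⟨cl_mem hR0.le _, cl_mem hR0.le _⟩, rfl⟩
  · rw [Submodule.inner_orthogonalProjectionOnto_eq_of_mem_right]
    exact (k0_J0 hR _ φ).trans (app_cl hR x φ)

end Vale.Agent.P153DH
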