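import Vale.Agent.P153DH.Kit
import Vale.Agent.P153DK.Fin
import Vale.Agent.P153DM.Fin
import Vale.Agent.P153.H212.Free

/-!
Convergence in law of the height field in `H^{-s}(D)`, `s > 1`.
-/

set_option autoImplicit false

namespace Vale.Agent.P153DH

theorem sobolev : SobolevTheorem :=
  P153DK.sob_of kit_thm P153DM.momh_thm P153.H212.existence P153.H212.field

end Vale.Agent.P153DH
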